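import Mathlib

/-! Width of rotationally symmetric metrics with scalar curvature bounded below. -/

open Set Filter Topology MeasureTheory
open scoped InnerProductSpace

namespace Vale.Agent.P210

/-- The comparison quantity `f^m (1 - f'^2) - f^(m+2)/((m+2)(m+1))`. -/
noncomputable def gap (m : ℕ) (f : ℝ → ℝ) (x : ℝ) : ℝ :=
  f x ^ m * (1 - deriv f x ^ 2) - f x ^ (m + 2) / (((m : ℝ) + 2) * ((m : ℝ) + 1))

lemma hasDerivAt_f {f : ℝ → ℝ} (hf : ContDiff ℝ 2 f) (x : ℝ) :
    HasDerivAt f (deriv f x) x :=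
  ((hf.differentiable (by norm_num)) x).hasDerivAt

lemma hasDerivAt_f' {f : ℝ → ℝ} (hf : ContDiff ℝ 2 f) (x : ℝ) :
    HasDerivAt (deriv f) (deriv (deriv f) x) x := by
  have h : ContDiff ℝ 1 (deriv f) := by
    have := hf.iterate_deriv' 1 1
    simpa using this
  exact ((h.differentiable (by norm_num)) x).hasDerivAt

lemma hasDerivAt_gap {f : ℝ → ℝ} (hf : ContDiff ℝ 2 f) {m : ℕ} (hm : 1 ≤ m) (x : ℝ) :
    HasDerivAt (gap m f)
      (deriv f x * f x ^ (m - 1) *
        ((m : ℝ) * (1 - deriv f x ^ 2) - 2 * f x * deriv (deriv f) x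
          - f x ^ 2 / ((m : ℝ) + 1))) x := by
  obtain ⟨k, rfl⟩ : ∃ k, m = k + 1 := ⟨m - 1, by omega⟩
  have h1 := hasDerivAt_f hf x
  have h2 := hasDerivAt_f' hf x
  have A := (h1.fun_pow (k + 1)).fun_mul ((h2.fun_pow 2).const_sub 1)
  have B := (h1.fun_pow (k + 1 + 2)).div_const ((((k + 1 : ℕ) : ℝ) + 2) * (((k + 1 : ℕ) : ℝ) + 1))
  refine ((A.fun_sub B).congr_deriv ?_)
  simp only [Nat.add_sub_cancel, show k + 1 + 2 - 1 = k + 2 from by omega]
  push_cast
  field_simp
  ring

/-- If `g t = 0` and `g' t < 0` then `g < 0` just right of `t` and `0 < g` just left of it. -/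
lemma sign_change {g : ℝ → ℝ} {t d : ℝ} (hg : HasDerivAt g d t) (h0 : g t = 0) (hd : d < 0) :
    (∀ᶠ x in 𝓝[>] t, g x < 0) ∧ (∀ᶠ x in 𝓝[<] t, 0 < g x) := by
  have hs : ∀ᶠ x in 𝓝[≠] t, slope g t x < 0 :=
    (hasDerivAt_iff_tendsto_slope.mp hg).eventually (gt_mem_nhds hd)
  constructor
  · have : 𝓝[>] t ≤ 𝓝[≠] t := nhdsWithin_mono t (fun x hx => ne_of_gt hx)
    filter_upwards [hs.filter_mono this, self_mem_nhdsWithin] with x hx hxt
    have hxt' : t < x := hxt
    rw [slope_def_field, h0, sub_zero, div_neg_iff] at hx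
    rcases hx with ⟨_, h⟩ | ⟨h, _⟩ <;> linarith
  · have : 𝓝[<] t ≤ 𝓝[≠] t := nhdsWithin_mono t (fun x hx => ne_of_lt hx)
    filter_upwards [hs.filter_mono this, self_mem_nhdsWithin] with x hx hxt
    have hxt' : x < t := hxt
    rw [slope_def_field, h0, sub_zero, div_neg_iff] at hx
    rcases hx with ⟨h, _⟩ | ⟨_, h⟩ <;> linarith

lemma gap_nonneg_left {f : ℝ → ℝ} (hf : ContDiff ℝ 2 f) {m : ℕ} (hm : 1 ≤ m)
    {I : Set ℝ} (hI : IsOpen I) (hpos : ∀ x ∈ I, 0 < f x) (hbd : ∀ x ∈ frontier I, f x = 0)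
    (hK : ∀ x ∈ I, f x ^ 2 / ((m : ℝ) + 1) ≤
      (m : ℝ) * (1 - deriv f x ^ 2) - 2 * f x * deriv (deriv f) x)
    {r : ℝ} (hr : r ∈ I) (hd : 0 ≤ deriv f r) : 0 ≤ gap m f r := by
  by_contra hneg
  push Not at hneg
  have hm1 : (1:ℝ) ≤ m := by exact_mod_cast hm
  set c : ℝ := ((m : ℝ) + 2) * ((m : ℝ) + 1) with hc
  have hc0 : 0 < c := by positivity
  have hcont : Continuous (deriv f) := hf.continuous_deriv (by norm_num)
  have hgap_eq : ∀ x, gap m f x = f x ^ m * (1 - deriv f x ^ 2 - f x ^ 2 / c) := by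
    intro x; simp only [gap, ← hc, pow_add]; ring
  -- a critical point with negative gap is a strict local maximum
  have hcrit : ∀ t ∈ I, deriv f t = 0 → gap m f t < 0 → deriv (deriv f) t < 0 := by
    intro t ht h0 hg
    have hp := hpos t ht
    rw [hgap_eq, h0] at hg
    have h1 : c < f t ^ 2 := by
      by_contra hle
      push Not at hle
      have : f t ^ 2 / c ≤ 1 := (div_le_one hc0).mpr hle
      have : 0 ≤ f t ^ m * (1 - 0 ^ 2 - f t ^ 2 / c) :=
        mul_nonneg (by positivity) (by simp; linarith)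
      linarith
    have hk := hK t ht
    rw [h0, div_le_iff₀ (by positivity)] at hk
    by_contra hge
    push Not at hge
    have h5 : 0 ≤ f t * deriv (deriv f) t * ((m : ℝ) + 1) := by positivity
    nlinarith
  -- left end of the component
  obtain ⟨L, hLI, hLend⟩ : ∃ L : Set ℝ, (L ⊆ I ∧ ∀ x ∈ L, ∀ y, x ≤ y → y ≤ r → y ∈ L) ∧
      ((L = Iic r) ∨ ∃ a < r, L = Ioc a r ∧ f a = 0) := by
    by_cases h : Iic r ⊆ I
    · exact ⟨Iic r, ⟨h, fun x _ y _ hy => hy⟩, Or.inl rfl⟩
    · set S := {x | x ≤ r ∧ x ∉ I} with hS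
      have hne : S.Nonempty := by
        obtain ⟨x, hx, hxI⟩ := not_subset.mp h
        exact ⟨x, hx, hxI⟩
      have hcl : IsClosed S := isClosed_Iic.inter hI.isClosed_compl
      have hba : BddAbove S := ⟨r, fun x hx => hx.1⟩
      obtain ⟨ha, haI⟩ := hcl.csSup_mem hne hba
      set a := sSup S with ha'
      have har : a < r := lt_of_le_of_ne ha (fun e => haI (e ▸ hr))
      have hsub : Ioc a r ⊆ I := by
        intro x hx
        by_contra hxI
        exact absurd (le_csSup hba ⟨hx.2, hxI⟩) (not_le.mpr hx.1)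
      refine ⟨Ioc a r, ⟨hsub, fun x hx y h1 h2 => ⟨lt_of_lt_of_le hx.1 h1, h2⟩⟩,
        Or.inr ⟨a, har, rfl, hbd a ?_⟩⟩
      rw [hI.frontier_eq]
      refine ⟨closure_mono hsub ?_, haI⟩
      rw [closure_Ioc har.ne]
      exact left_mem_Icc.mpr har.le
  have hanti : ∀ x ∈ L, x ≤ r → (∀ y ∈ Ioo x r, 0 ≤ deriv f y) → gap m f x ≤ gap m f r := by
    intro x hx hxr hy
    have hmono : MonotoneOn (gap m f) (Icc x r) := by
      refine monotoneOn_of_deriv_nonneg (convex_Icc x r)
        (fun y _ => (hasDerivAt_gap hf hm y).continuousAt.continuousWithinAt)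
        (fun y _ => (hasDerivAt_gap hf hm y).differentiableAt.differentiableWithinAt) ?_
      rw [interior_Icc]
      intro y hy'
      have hyI : y ∈ I := hLI.1 (hLI.2 x hx y hy'.1.le hy'.2.le)
      rw [(hasDerivAt_gap hf hm y).deriv]
      exact mul_nonneg (mul_nonneg (hy y hy') (pow_nonneg (hpos y hyI).le _))
        (by linarith [hK y hyI])
    exact hmono (left_mem_Icc.mpr hxr) (right_mem_Icc.mpr hxr) hxr
  -- f' stays positive to the left of r
  have hposd : ∀ x ∈ L, x < r → 0 < deriv f x := by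
    intro x hx hxr
    by_contra hle
    push Not at hle
    have hnear : ∀ᶠ y in 𝓝[<] r, 0 < deriv f y := by
      rcases hd.lt_or_eq with h | h
      · exact (hcont.continuousAt.eventually (lt_mem_nhds h)).filter_mono nhdsWithin_le_nhds
      · exact (sign_change (hasDerivAt_f' hf r) h.symm (hcrit r hr h.symm hneg)).2
    obtain ⟨s, hs, hsub⟩ := mem_nhdsLT_iff_exists_Ioo_subset.mp hnear
    have hs' : s < r := hs
    set T := {y | y ∈ Icc x (max x s) ∧ deriv f y ≤ 0} with hT
    have hTc : IsClosed T := isClosed_Icc.inter (isClosed_le hcont continuous_const)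
    have hTb : BddAbove T := ⟨max x s, fun y hy => hy.1.2⟩
    have hTne : T.Nonempty := ⟨x, ⟨le_rfl, le_max_left _ _⟩, hle⟩
    obtain ⟨ht, ht0⟩ := hTc.csSup_mem hTne hTb
    set t := sSup T with htdef
    have htr : t < r := lt_of_le_of_lt ht.2 (max_lt hxr hs')
    have hright : ∀ y ∈ Ioo t r, 0 < deriv f y := by
      intro y hy
      by_cases hys : y ≤ max x s
      · by_contra h
        push Not at h
        exact absurd (le_csSup hTb ⟨⟨le_trans ht.1 hy.1.le, hys⟩, h⟩) (not_le.mpr hy.1)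
      · exact hsub ⟨lt_of_le_of_lt (le_max_right x s) (not_le.mp hys), hy.2⟩
    have htz : deriv f t = 0 := by
      refine le_antisymm ht0 ?_
      have htend : Tendsto (deriv f) (𝓝[>] t) (𝓝 (deriv f t)) :=
        hcont.continuousAt.tendsto.mono_left nhdsWithin_le_nhds
      exact ge_of_tendsto htend
        (by filter_upwards [Ioo_mem_nhdsGT htr] with y hy using (hright y hy).le)
    have htL : t ∈ L := hLI.2 x hx t ht.1 htr.le
    have hgt : gap m f t < 0 :=
      lt_of_le_of_lt (hanti t htL htr.le (fun y hy => (hright y hy).le)) hneg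
    have hev := (sign_change (hasDerivAt_f' hf t) htz (hcrit t (hLI.1 htL) htz hgt)).1
    obtain ⟨y, hy1, hy2⟩ := (hev.and (Ioo_mem_nhdsGT htr)).exists
    linarith [hright y hy2]
  have hgapL : ∀ x ∈ L, x < r → gap m f x ≤ gap m f r := fun x hx hxr =>
    hanti x hx hxr.le (fun y hy => (hposd y (hLI.2 x hx y hy.1.le hy.2.le) hy.2).le)
  rcases hLend with rfl | ⟨a, har, rfl, hfa⟩
  · -- the component reaches minus infinity
    set δ := -gap m f r with hδ
    have hδ0 : 0 < δ := by linarith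
    have hfmono : MonotoneOn f (Iic r) := by
      refine monotoneOn_of_deriv_nonneg (convex_Iic r) hf.continuous.continuousOn
        (hf.differentiable (by norm_num)).differentiableOn ?_
      rw [interior_Iic]
      exact fun y hy => (hposd y (le_of_lt (show y < r from hy)) hy).le
    set F := f r with hF
    have hF0 : 0 < F := hpos r hr
    -- lower bound for f' below r - 1
    have key : ∃ η > 0, ∀ x ≤ r - 1, η ≤ deriv f x := by
      set q := min (deriv f (r - 1)) (min 1 (δ / F ^ m)) with hq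
      have hq0 : 0 < q := lt_min (hposd _ (show r - 1 ≤ r by linarith) (by linarith))
        (lt_min one_pos (by positivity))
      refine ⟨q, hq0, fun x hx => ?_⟩
      by_contra hlt
      push Not at hlt
      -- look at the last point z in [x, r-1] where f' is at most its value at x
      set d := deriv f x with hd'
      set T := {y | y ∈ Icc x (r - 1) ∧ deriv f y ≤ d} with hT
      have hTc : IsClosed T := isClosed_Icc.inter (isClosed_le hcont continuous_const)
      have hTb : BddAbove T := ⟨r - 1, fun y hy => hy.1.2⟩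
      obtain ⟨hz, hzd⟩ := hTc.csSup_mem ⟨x, ⟨le_rfl, hx⟩, le_rfl⟩ hTb
      set z := sSup T with hzdef
      have hzr : z < r - 1 := by
        refine lt_of_le_of_ne hz.2 (fun e => ?_)
        rw [e] at hzd
        linarith [min_le_left (deriv f (r - 1)) (min 1 (δ / F ^ m))]
      have hzL : z ∈ Iic r := show z ≤ r by linarith
      have hzI : z ∈ I := hLI.1 hzL
      have hzg := hgapL z hzL (by linarith)
      have hzp := hposd z hzL (by linarith)
      have hfz : f z ≤ F := hfmono hzL (self_mem_Iic) (by linarith)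
      -- at z the second derivative is nonnegative, so f z is small
      have hdd : 0 ≤ deriv (deriv f) z := by
        refine ge_of_tendsto ((hasDerivAt_iff_tendsto_slope.mp (hasDerivAt_f' hf z)).mono_left
          (nhdsWithin_mono z (show Ioi z ⊆ {z}ᶜ from fun y hy => ne_of_gt hy))) ?_
        filter_upwards [Ioo_mem_nhdsGT hzr] with y hy
        rw [slope_def_field]
        refine div_nonneg ?_ (by linarith [hy.1])
        by_contra h
        push Not at h
        exact absurd (le_csSup hTb ⟨⟨le_trans hz.1 hy.1.le, hy.2.le⟩, by linarith⟩)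
          (not_le.mpr hy.1)
      have hk := hK z hzI
      have hfzp := hpos z hzI
      have h2 : f z ^ 2 / c ≤ 1 := by
        rw [div_le_one hc0]
        rw [div_le_iff₀ (by positivity)] at hk
        have h5 : 0 ≤ f z * deriv (deriv f) z * ((m : ℝ) + 1) := by positivity
        have h6 : 0 ≤ (m : ℝ) * deriv f z ^ 2 * ((m : ℝ) + 1) := by positivity
        nlinarith
      have h4 : δ / F ^ m ≤ deriv f z ^ 2 := by
        rw [div_le_iff₀ (by positivity)]
        rw [hgap_eq z] at hzg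
        have h7 : 0 ≤ f z ^ m * (1 - f z ^ 2 / c) := mul_nonneg (by positivity) (by linarith)
        have h8 : f z ^ m * deriv f z ^ 2 ≤ F ^ m * deriv f z ^ 2 :=
          mul_le_mul_of_nonneg_right (pow_le_pow_left₀ hfzp.le hfz m) (sq_nonneg _)
        nlinarith
      have h9 : q ≤ δ / F ^ m := le_trans (min_le_right _ _) (min_le_right _ _)
      have h10 : q ≤ 1 := le_trans (min_le_right _ _) (min_le_left _ _)
      nlinarith
    obtain ⟨η, hη, hlow⟩ := key
    set x := r - 1 - F / η with hx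
    have hFη : 0 < F / η := by positivity
    have hdiff := hf.differentiable (by norm_num : (2 : WithTop ℕ∞) ≠ 0)
    have hmvt := (convex_Icc x (r - 1)).mul_sub_le_image_sub_of_le_deriv
      hf.continuous.continuousOn hdiff.differentiableOn
      (C := η) (fun y hy => hlow y (by rw [interior_Icc] at hy; exact hy.2.le))
      x (left_mem_Icc.mpr (by linarith)) (r - 1) (right_mem_Icc.mpr (by linarith)) (by linarith)
    have e : η * (r - 1 - x) = F := by rw [hx]; field_simp; ring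
    have hxp := hpos x (hLI.1 (show x ≤ r by linarith))
    have : f (r - 1) ≤ F := hfmono (show r - 1 ≤ r by linarith) (self_mem_Iic) (by linarith)
    linarith
  · -- the component starts at a zero of f
    have htend : Tendsto (gap m f) (𝓝[>] a) (𝓝 (gap m f a)) :=
      (hasDerivAt_gap hf hm a).continuousAt.tendsto.mono_left nhdsWithin_le_nhds
    have hle : gap m f a ≤ gap m f r := le_of_tendsto htend
      (by filter_upwards [Ioo_mem_nhdsGT har] with x hx using hgapL x ⟨hx.1, hx.2.le⟩ hx.2)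
    have h0 : gap m f a = 0 := by
      simp [gap, hfa, zero_pow (show m ≠ 0 by omega)]
    linarith

lemma gap_nonneg {f : ℝ → ℝ} (hf : ContDiff ℝ 2 f) {m : ℕ} (hm : 1 ≤ m)
    {I : Set ℝ} (hI : IsOpen I) (hpos : ∀ x ∈ I, 0 < f x) (hbd : ∀ x ∈ frontier I, f x = 0)
    (hK : ∀ x ∈ I, f x ^ 2 / ((m : ℝ) + 1) ≤
      (m : ℝ) * (1 - deriv f x ^ 2) - 2 * f x * deriv (deriv f) x)
    {r : ℝ} (hr : r ∈ I) : 0 ≤ gap m f r := by
  rcases le_total 0 (deriv f r) with h | h
  · exact gap_nonneg_left hf hm hI hpos hbd hK hr h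
  · set g : ℝ → ℝ := fun x => f (-x) with hg
    have h1 : ∀ x, deriv g x = -deriv f (-x) := fun x => by rw [hg, deriv_comp_neg]
    have h2 : ∀ x, deriv (deriv g) x = deriv (deriv f) (-x) := fun x => by
      rw [show deriv g = fun y => -deriv f (-y) from funext h1, deriv.fun_neg, deriv_comp_neg, neg_neg]
    have hgc : ContDiff ℝ 2 g := hf.comp contDiff_neg
    have := gap_nonneg_left (f := g) hgc hm (I := (fun x => -x) ⁻¹' I)
      (hI.preimage continuous_neg) (fun x hx => hpos _ hx)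
      (fun x hx => hbd (-x) (((Homeomorph.neg ℝ).preimage_frontier I).ge hx))
      (fun x hx => by rw [h1, h2, neg_sq]; exact hK _ hx)
      (r := -r) (by simpa using hr) (by rw [h1, neg_neg]; linarith)
    rw [gap, h1] at this
    simp only [hg, neg_neg, neg_sq] at this
    exact this

/-- The sharp pointwise bound. -/
theorem profile_bound {f : ℝ → ℝ} (hf : ContDiff ℝ 2 f) {n : ℕ} (hn : 3 ≤ n)
    {I : Set ℝ} (hI : IsOpen I) (hpos : ∀ x ∈ I, 0 < f x) (hbd : ∀ x ∈ frontier I, f x = 0)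
    (hS : ∀ x ∈ I, 1 ≤ ((n : ℝ) - 1) *
      (((n : ℝ) - 2) * (1 - deriv f x ^ 2) - 2 * f x * deriv (deriv f) x) / f x ^ 2)
    {r : ℝ} (hr : r ∈ I) :
    deriv f r ^ 2 + f r ^ 2 / ((n : ℝ) * ((n : ℝ) - 1)) ≤ 1 := by
  obtain ⟨m, rfl⟩ : ∃ m, n = m + 2 := ⟨n - 2, by omega⟩
  have hp := hpos r hr
  have := gap_nonneg hf (show 1 ≤ m by omega) hI hpos hbd (fun x hx => by
    have h := hS x hx
    have hx0 := hpos x hx
    rw [le_div_iff₀ (by positivity), one_mul] at h
    rw [div_le_iff₀ (by positivity)]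
    push_cast at h
    linarith) hr
  simp only [gap] at this
  have e : f r ^ m * (1 - deriv f r ^ 2) - f r ^ (m + 2) / (((m : ℝ) + 2) * ((m : ℝ) + 1))
      = f r ^ m * (1 - deriv f r ^ 2 - f r ^ 2 / (((m : ℝ) + 2) * ((m : ℝ) + 1))) := by
    rw [pow_add]; ring
  rw [e] at this
  have h2 := nonneg_of_mul_nonneg_right this (by positivity)
  push_cast
  rw [show ((m : ℝ) + 2 - 1) = (m : ℝ) + 1 by ring]
  linarith

/-- Two points of a unit sphere are joined inside it by an arc of length at most `π`. -/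
lemma arc (n : ℕ) (hn : 3 ≤ n) (a b : EuclideanSpace ℝ (Fin n)) (ha : ‖a‖ = 1) (hb : ‖b‖ = 1) :
    ∃ c : ℝ → EuclideanSpace ℝ (Fin n), ContDiff ℝ 1 c ∧ c 0 = a ∧ c 1 = b ∧
      (∀ t, ‖c t‖ = 1) ∧ ∀ t, ‖deriv c t‖ ≤ Real.pi := by
  set s : ℝ := ⟪a, b⟫_ℝ with hs
  have hs1 : |s| ≤ 1 := by simpa [ha, hb] using abs_real_inner_le_norm a b
  set v := b - s • a with hv
  have hav : ⟪a, v⟫_ℝ = 0 := by
    rw [hv, inner_sub_right, real_inner_smul_right, real_inner_self_eq_norm_sq, ha, ← hs]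
    ring
  have hvn : ‖v‖ ^ 2 = 1 - s ^ 2 := by
    rw [hv, norm_sub_sq_real, real_inner_smul_right, real_inner_comm, ← hs, norm_smul, ha, hb,
      mul_one, Real.norm_eq_abs, sq_abs]
    ring
  obtain ⟨w, hw1, haw, hbw⟩ : ∃ w : EuclideanSpace ℝ (Fin n), ‖w‖ = 1 ∧ ⟪a, w⟫_ℝ = 0 ∧
      v = Real.sqrt (1 - s ^ 2) • w := by
    have hnv : Real.sqrt (1 - s ^ 2) = ‖v‖ := by rw [← hvn, Real.sqrt_sq (norm_nonneg _)]
    by_cases h0 : v = 0
    · have hrank : 1 < Module.finrank ℝ (EuclideanSpace ℝ (Fin n)) := by simp; omega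
      have : (ℝ ∙ a)ᗮ ≠ ⊥ := by
        intro hbot
        have h1 := Submodule.finrank_add_finrank_orthogonal (ℝ ∙ a)
        rw [hbot, finrank_bot, add_zero, finrank_span_singleton
          (norm_ne_zero_iff.mp (by rw [ha]; norm_num))] at h1
        omega
      obtain ⟨u, hu, hu0⟩ := Submodule.exists_mem_ne_zero_of_ne_bot this
      refine ⟨‖u‖⁻¹ • u, norm_smul_inv_norm hu0, ?_, by rw [hnv, h0]; simp⟩
      rw [real_inner_smul_right, Submodule.mem_orthogonal_singleton_iff_inner_right.mp hu, mul_zero]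
    · refine ⟨‖v‖⁻¹ • v, norm_smul_inv_norm h0, by rw [real_inner_smul_right, hav, mul_zero], ?_⟩
      rw [hnv, smul_inv_smul₀ (norm_ne_zero_iff.mpr h0)]
  set φ := Real.arccos s with hφ
  have hφ0 := Real.arccos_nonneg s
  have hφ1 := Real.arccos_le_pi s
  refine ⟨fun t => Real.cos (φ * t) • a + Real.sin (φ * t) • w, by fun_prop, by simp, ?_, ?_, ?_⟩
  · simp only [mul_one, hφ, Real.cos_arccos (abs_le.mp hs1).1 (abs_le.mp hs1).2, Real.sin_arccos]
    rw [← hbw, hv]; simp
  · intro t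
    rw [← sq_eq_sq₀ (norm_nonneg _) zero_le_one, norm_add_sq_real, norm_smul, norm_smul,
      real_inner_smul_left, real_inner_smul_right, haw, ha, hw1, Real.norm_eq_abs,
      Real.norm_eq_abs, mul_one, mul_one, sq_abs, sq_abs]
    linarith [Real.sin_sq_add_cos_sq (φ * t)]
  · intro t
    have hl : HasDerivAt (fun t : ℝ => φ * t) φ t := by
      simpa using (hasDerivAt_id t).const_mul φ
    have hd : HasDerivAt (fun t => Real.cos (φ * t) • a + Real.sin (φ * t) • w)
        ((-Real.sin (φ * t) * φ) • a + (Real.cos (φ * t) * φ) • w) t :=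
      (hl.cos.smul_const a).add (hl.sin.smul_const w)
    rw [hd.deriv]
    refine le_trans (le_of_eq ?_) hφ1
    rw [← sq_eq_sq₀ (norm_nonneg _) hφ0, norm_add_sq_real, norm_smul, norm_smul,
      real_inner_smul_left, real_inner_smul_right, haw, ha, hw1, Real.norm_eq_abs,
      Real.norm_eq_abs, mul_one, mul_one, sq_abs, sq_abs]
    linear_combination (φ ^ 2) * Real.sin_sq_add_cos_sq (φ * t)

/-- Every fibre of the radial projection has diameter at most `π √(n(n-1))`. -/
theorem fibre_bound {f : ℝ → ℝ} (hf : ContDiff ℝ 2 f) {n : ℕ} (hn : 3 ≤ n)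
    {I : Set ℝ} (hI : IsOpen I) (hpos : ∀ x ∈ I, 0 < f x) (hbd : ∀ x ∈ frontier I, f x = 0)
    (hS : ∀ x ∈ I, 1 ≤ ((n : ℝ) - 1) *
      (((n : ℝ) - 2) * (1 - deriv f x ^ 2) - 2 * f x * deriv (deriv f) x) / f x ^ 2)
    {r : ℝ} (hr : r ∈ I) (a b : EuclideanSpace ℝ (Fin n)) (ha : ‖a‖ = 1) (hb : ‖b‖ = 1) :
    ∃ γ : ℝ → ℝ × EuclideanSpace ℝ (Fin n), ContDiff ℝ 1 γ ∧ γ 0 = (r, a) ∧ γ 1 = (r, b) ∧
      (∀ t, (γ t).1 ∈ I ∧ ‖(γ t).2‖ = 1) ∧
      ∫ t in (0:ℝ)..1, Real.sqrt ((deriv (fun u => (γ u).1) t) ^ 2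
          + f ((γ t).1) ^ 2 * ‖deriv (fun u => (γ u).2) t‖ ^ 2)
        ≤ Real.pi * Real.sqrt ((n : ℝ) * ((n : ℝ) - 1)) := by
  obtain ⟨c, hc, hc0, hc1, hc2, hc3⟩ := arc n hn a b ha hb
  refine ⟨fun t => (r, c t), contDiff_const.prodMk hc, by simp [hc0], by simp [hc1],
    fun t => ⟨hr, hc2 t⟩, ?_⟩
  have hp := hpos r hr
  have hn3 : (3:ℝ) ≤ n := by exact_mod_cast hn
  have hN : (0:ℝ) < (n : ℝ) * ((n : ℝ) - 1) := by nlinarith
  have hfr : f r ≤ Real.sqrt ((n : ℝ) * ((n : ℝ) - 1)) := by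
    refine Real.le_sqrt_of_sq_le ?_
    have := profile_bound hf hn hI hpos hbd hS hr
    exact (div_le_one hN).mp (by nlinarith [sq_nonneg (deriv f r)])
  have e : ∀ t, Real.sqrt ((deriv (fun u => ((fun t => (r, c t)) u).1) t) ^ 2
          + f (((fun t => (r, c t)) t).1) ^ 2 * ‖deriv (fun u => ((fun t => (r, c t)) u).2) t‖ ^ 2)
        = f r * ‖deriv c t‖ := by
    intro t
    simp only [deriv_const', ne_eq, OfNat.ofNat_ne_zero, not_false_eq_true, zero_pow, zero_add]
    rw [← mul_pow, Real.sqrt_sq (by positivity)]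
  simp only [e]
  have hcd : Continuous (deriv c) := hc.continuous_deriv le_rfl
  calc ∫ t in (0:ℝ)..1, f r * ‖deriv c t‖
      ≤ ∫ _t in (0:ℝ)..1, Real.pi * Real.sqrt ((n : ℝ) * ((n : ℝ) - 1)) := by
        refine intervalIntegral.integral_mono_on zero_le_one
          ((continuous_const.mul hcd.norm).intervalIntegrable _ _) intervalIntegrable_const ?_
        intro t _
        rw [mul_comm Real.pi]
        exact mul_le_mul hfr (hc3 t) (norm_nonneg _) (Real.sqrt_nonneg _)
    _ = Real.pi * Real.sqrt ((n : ℝ) * ((n : ℝ) - 1)) := by simp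

end Vale.Agent.P210
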