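import Mathlib
import Vale.Agent.P210.Warped

/-! Warped products of spheres over flat bases of any dimension with scalar curvature at least one. -/

open Set Filter Topology MeasureTheory

namespace Vale.Agent.P210

/-- Second derivative test at a local maximum. -/
lemma second_deriv_nonpos {q q' : ℝ → ℝ} {D : ℝ} (hq : ∀ᶠ t in 𝓝 0, HasDerivAt q (q' t) t)
    (hq' : HasDerivAt q' D 0) (hmax : IsLocalMax q 0) : q' 0 = 0 ∧ D ≤ 0 := by
  have h0 : q' 0 = 0 := hmax.hasDerivAt_eq_zero hq.self_of_nhds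
  refine ⟨h0, ?_⟩
  by_contra hD
  push Not at hD
  have hs := (sign_change hq'.neg (by simp [h0]) (by linarith)).1
  have hmx : ∀ᶠ t in 𝓝 (0:ℝ), q t ≤ q 0 := hmax
  have hall := (hq.and hmx).filter_mono (nhdsWithin_le_nhds (s := Ioi (0:ℝ)))
  obtain ⟨e, he, hsub⟩ := mem_nhdsGT_iff_exists_Ioo_subset.mp (hs.and hall)
  have he' : (0:ℝ) < e := he
  set t := e / 2 with ht
  have ht0 : 0 < t := by positivity
  have hder : ∀ y ∈ Icc 0 t, HasDerivAt q (q' y) y := by
    intro y hy
    rcases hy.1.eq_or_lt with h | h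
    · exact h ▸ hq.self_of_nhds
    · exact (hsub ⟨h, by linarith [hy.2]⟩).2.1
  obtain ⟨y, hy, hslope⟩ := exists_hasDerivAt_eq_slope q q' ht0
    (fun y hy => (hder y hy).continuousAt.continuousWithinAt)
    (fun y hy => hder y (Ioo_subset_Icc_self hy))
  have h1 : 0 < q' y := by
    have := (hsub ⟨hy.1, by linarith [hy.2]⟩).1
    simp only [Pi.neg_apply] at this
    linarith
  have h2 : q t ≤ q 0 := (hsub ⟨ht0, by linarith⟩).2.2
  rw [hslope, sub_zero] at h1
  exact absurd (div_pos_iff.mp h1) (by rintro (⟨h, _⟩ | ⟨_, h⟩) <;> linarith)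

/-- The inequality in one direction at a maximum of `cos (c (d + t)) * g t ^ (-p)`. -/
lemma line_ineq {g : ℝ → ℝ} (hg : ContDiff ℝ 2 g) {p c d : ℝ}
    (hg0 : 0 < g 0) (hcos : 0 < Real.cos (c * d))
    (hmax : IsLocalMax (fun t => Real.cos (c * (d + t)) * g t ^ (-p)) 0) :
    -c ^ 2 ≤ p * (deriv (deriv g) 0 / g 0 + (p - 1) * (deriv g 0 / g 0) ^ 2) := by
  set q : ℝ → ℝ := fun t => Real.log (Real.cos (c * (d + t))) - p * Real.log (g t) with hqdef
  set q' : ℝ → ℝ := fun t => -Real.sin (c * (d + t)) * c / Real.cos (c * (d + t))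
    - p * (deriv g t / g t) with hq'def
  have hev : ∀ᶠ t in 𝓝 (0:ℝ), 0 < Real.cos (c * (d + t)) ∧ 0 < g t := by
    refine Filter.Eventually.and ?_ (hg.continuous.continuousAt.eventually (lt_mem_nhds hg0))
    have hc : Continuous fun t => Real.cos (c * (d + t)) := by fun_prop
    exact hc.continuousAt.eventually (lt_mem_nhds (by simpa using hcos))
  have hl : ∀ t : ℝ, HasDerivAt (fun t => c * (d + t)) c t := fun t => by
    simpa using ((hasDerivAt_id t).const_add d).const_mul c
  have hq : ∀ᶠ t in 𝓝 0, HasDerivAt q (q' t) t := by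
    filter_upwards [hev] with t ht
    exact ((hl t).cos.log ht.1.ne').fun_sub (((hasDerivAt_f hg t).log ht.2.ne').const_mul p)
  have hq2 := ((((hl 0).sin.fun_neg).mul_const c).fun_div (hl 0).cos (by simpa using hcos.ne')).fun_sub
    (((hasDerivAt_f' hg 0).fun_div (hasDerivAt_f hg 0) hg0.ne').const_mul p)
  have hqmax : IsLocalMax q 0 := by
    have hmx : ∀ᶠ t in 𝓝 (0:ℝ), Real.cos (c * (d + t)) * g t ^ (-p)
        ≤ Real.cos (c * (d + 0)) * g 0 ^ (-p) := hmax
    show ∀ᶠ t in 𝓝 (0:ℝ), q t ≤ q 0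
    filter_upwards [hmx, hev] with t ht hpos
    have h := Real.log_le_log (mul_pos hpos.1 (Real.rpow_pos_of_pos hpos.2 _)) ht
    rw [Real.log_mul hpos.1.ne' (Real.rpow_pos_of_pos hpos.2 _).ne', Real.log_rpow hpos.2,
      Real.log_mul (by simpa using hcos.ne') (Real.rpow_pos_of_pos hg0 _).ne',
      Real.log_rpow hg0] at h
    simp only [hqdef]
    linarith
  obtain ⟨h1, h2⟩ := second_deriv_nonpos hq hq2 hqmax
  simp only [hq'def, add_zero] at h1
  simp only [add_zero] at h2
  set S := Real.sin (c * d) with hS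
  set K := Real.cos (c * d) with hK
  set G := g 0 with hG
  set A := deriv g 0 with hA
  set B := deriv (deriv g) 0 with hB
  have e1 : p * (A / G) = -(S * c / K) := by linear_combination -h1
  have e2 : (-(K * c) * c * K - -S * c * (-S * c)) / K ^ 2 = -c ^ 2 - (S * c / K) ^ 2 := by
    field_simp
    try ring
  have e3 : (B * G - A * A) / G ^ 2 = B / G - (A / G) ^ 2 := by
    field_simp
    try ring
  rw [e2, e3] at h2
  nlinarith [congrArg (fun z => z ^ 2) e1]

variable {k : ℕ}


/-- Every closed cube of radius `π √(2k)` centred in `U` leaves `U` or meets `f ≤ √(2m(m-1))`. -/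
lemma exists_low {m : ℕ} (hm : 2 ≤ m) {f : (EuclideanSpace ℝ (Fin k)) → ℝ} (hf : ContDiff ℝ 2 f)
    {U : Set (EuclideanSpace ℝ (Fin k))} (hU : IsOpen U) (hpos : ∀ x ∈ U, 0 < f x)
    (hS : ∀ x ∈ U, 1 ≤ -2 * (m : ℝ) *
        (∑ i, deriv (deriv fun t : ℝ => f (x + t • EuclideanSpace.single i 1)) 0) / f x
      + (m : ℝ) * ((m : ℝ) - 1) *
        (1 - ∑ i, (deriv (fun t : ℝ => f (x + t • EuclideanSpace.single i 1)) 0) ^ 2) / f x ^ 2)
    {x : (EuclideanSpace ℝ (Fin k))} (hx : x ∈ U) :
    ∃ y, (∀ i, |y i - x i| ≤ Real.pi * Real.sqrt (2 * k)) ∧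
      (y ∉ U ∨ f y ^ 2 ≤ 2 * (m : ℝ) * ((m : ℝ) - 1)) := by
  by_contra hcon
  push Not at hcon
  set R := Real.pi * Real.sqrt (2 * k) with hR
  set c := Real.pi / (2 * R) with hc
  set p := ((m : ℝ) + 1) / 2 with hp
  have hm2 : (2:ℝ) ≤ m := by exact_mod_cast hm
  set Q : Set (EuclideanSpace ℝ (Fin k)) := {y | ∀ i, |y i - x i| ≤ R} with hQ
  have hQU : ∀ y ∈ Q, y ∈ U ∧ 2 * (m : ℝ) * ((m : ℝ) - 1) < f y ^ 2 := fun y hy =>
    hcon y hy
  rcases Nat.eq_zero_or_pos k with hk | hk
  · subst hk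
    have h := hS x hx
    obtain ⟨-, h2⟩ := hQU x (fun i => i.elim0)
    simp only [Finset.univ_eq_empty, Finset.sum_empty, mul_zero, zero_div, zero_add, sub_zero,
      mul_one] at h
    rw [le_div_iff₀ (pow_pos (hpos x hx) 2)] at h
    nlinarith
  have hk0 : (1:ℝ) ≤ k := by exact_mod_cast hk
  have hRp : 0 < R := by rw [hR]; positivity
  have hcR : c * R = Real.pi / 2 := by rw [hc]; field_simp
  have hc0 : 0 < c := by positivity
  have hxQ : x ∈ Q := fun i => by simp [hRp.le]
  have hQc : IsCompact Q := by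
    refine Metric.isCompact_of_isClosed_isBounded ?_ ?_
    · rw [hQ]
      simp only [ofPred_forall]
      exact isClosed_iInter fun i => isClosed_le
        ((EuclideanSpace.proj (𝕜 := ℝ) i).continuous.sub continuous_const).abs continuous_const
    · refine (Metric.isBounded_closedBall (x := x) (r := Real.sqrt (k * R ^ 2))).subset ?_
      intro y hy
      rw [Metric.mem_closedBall, EuclideanSpace.dist_eq]
      refine Real.sqrt_le_sqrt (le_trans (Finset.sum_le_sum (g := fun _ => R ^ 2) ?_) (by simp))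
      intro i _
      rw [Real.dist_eq]
      exact pow_le_pow_left₀ (abs_nonneg _) (hy i) 2
  set H : (EuclideanSpace ℝ (Fin k)) → ℝ := fun y => (∏ i, Real.cos (c * (y i - x i))) * f y ^ (-p) with hH
  have hHc : ContinuousOn H Q := by
    refine ContinuousOn.mul (Continuous.continuousOn ?_) ?_
    · exact continuous_finsetProd _ fun i _ => Real.continuous_cos.comp
        (continuous_const.mul ((EuclideanSpace.proj (𝕜 := ℝ) i).continuous.sub continuous_const))
    · exact hf.continuous.continuousOn.rpow_const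
        fun y hy => Or.inl (hpos y (hQU y hy).1).ne'
  obtain ⟨z, hz, hmax⟩ := hQc.exists_isMaxOn ⟨x, hxQ⟩ hHc
  have hHx : 0 < H x := by
    simp only [hH, sub_self, mul_zero, Real.cos_zero, Finset.prod_const_one, one_mul]
    exact Real.rpow_pos_of_pos (hpos x hx) _
  have hHz : 0 < H z := lt_of_lt_of_le hHx (hmax hxQ)
  obtain ⟨hzU, hzL⟩ := hQU z hz
  have hfz := hpos z hzU
  have hcz : ∀ i, 0 < Real.cos (c * (z i - x i)) := by
    intro i
    have hb : |c * (z i - x i)| ≤ Real.pi / 2 := by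
      rw [abs_mul, abs_of_pos hc0, ← hcR]
      exact mul_le_mul_of_nonneg_left (hz i) hc0.le
    obtain ⟨b1, b2⟩ := abs_le.mp hb
    refine lt_of_le_of_ne (Real.cos_nonneg_of_mem_Icc ⟨b1, b2⟩) (fun h0 => ?_)
    have h1 : (∏ j, Real.cos (c * (z j - x j))) = 0 :=
      Finset.prod_eq_zero (Finset.mem_univ i) h0.symm
    have : H z = 0 := by simp [hH, h1]
    linarith
  have hzint : ∀ i, |z i - x i| < R := by
    intro i
    refine lt_of_le_of_ne (hz i) (fun he => ?_)
    have h1 := hcz i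
    rw [← Real.cos_abs, abs_mul, abs_of_pos hc0, he, hcR, Real.cos_pi_div_two] at h1
    exact lt_irrefl 0 h1
  have hline : ∀ i, -c ^ 2 ≤ p *
      (deriv (deriv fun t : ℝ => f (z + t • EuclideanSpace.single i 1)) 0 / f z
        + (p - 1) * (deriv (fun t : ℝ => f (z + t • EuclideanSpace.single i 1)) 0 / f z) ^ 2) := by
    intro i
    set g : ℝ → ℝ := fun t => f (z + t • EuclideanSpace.single i 1) with hg
    have hgc : ContDiff ℝ 2 g :=
      hf.comp (contDiff_const.add (contDiff_id.smul contDiff_const))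
    have h0 : g 0 = f z := by simp [hg]
    have hz' : IsLocalMax (fun t => Real.cos (c * (z i - x i + t)) * g t ^ (-p)) 0 := by
      set P := ∏ j ∈ Finset.univ.erase i, Real.cos (c * (z j - x j)) with hP
      have hP0 : 0 < P := Finset.prod_pos fun j _ => hcz j
      have hrest : ∀ t : ℝ, H (z + t • EuclideanSpace.single i 1)
          = P * (Real.cos (c * (z i - x i + t)) * g t ^ (-p)) := by
        intro t
        simp only [hH, hg, hP]
        rw [← Finset.mul_prod_erase Finset.univ _ (Finset.mem_univ i)]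
        have e : ∏ j ∈ Finset.univ.erase i, Real.cos (c * ((z + t • EuclideanSpace.single i (1:ℝ) : (EuclideanSpace ℝ (Fin k))) j - x j))
            = ∏ j ∈ Finset.univ.erase i, Real.cos (c * (z j - x j)) := by
          refine Finset.prod_congr rfl fun j hj => ?_
          simp [Finset.ne_of_mem_erase hj]
        rw [e]
        simp only [PiLp.add_apply, PiLp.smul_apply, PiLp.single_apply, if_true, smul_eq_mul,
          mul_one]
        rw [show z i + t - x i = z i - x i + t by ring]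
        ring
      have hnear : ∀ᶠ t in 𝓝 (0:ℝ), z + t • EuclideanSpace.single i (1:ℝ) ∈ Q := by
        have h1 : ∀ᶠ t in 𝓝 (0:ℝ), |z i - x i + t| < R := by
          have hcnt : Continuous fun t : ℝ => |z i - x i + t| := by fun_prop
          exact hcnt.continuousAt.eventually (gt_mem_nhds (by simpa using hzint i))
        filter_upwards [h1] with t ht j
        by_cases hj : j = i
        · subst hj
          simp only [PiLp.add_apply, PiLp.smul_apply, PiLp.single_apply, if_true, smul_eq_mul,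
            mul_one]
          rw [show z j + t - x j = z j - x j + t by ring]
          exact ht.le
        · simpa [hj] using hz j
      show ∀ᶠ t in 𝓝 (0:ℝ), _
      filter_upwards [hnear] with t ht
      refine le_of_mul_le_mul_left ?_ hP0
      rw [← hrest t, ← hrest 0]
      simpa using hmax ht
    have h := line_ineq hgc (p := p) (by rw [h0]; exact hfz) (hcz i) hz'
    rw [h0] at h
    exact h
  have hsum := Finset.sum_le_sum fun i (_ : i ∈ Finset.univ) => hline i
  have hkc : (k : ℝ) * c ^ 2 = 1 / 8 := by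
    rw [hc, hR]
    field_simp
    rw [Real.sq_sqrt (by positivity)]
    ring
  simp only [Finset.sum_const, Finset.card_univ, Fintype.card_fin, nsmul_eq_mul, ← Finset.mul_sum,
    Finset.sum_add_distrib, ← Finset.sum_div, div_pow] at hsum
  have hz2 := hS z hzU
  set A := ∑ i, deriv (deriv fun t : ℝ => f (z + t • EuclideanSpace.single i 1)) 0
  set B := ∑ i, (deriv (fun t : ℝ => f (z + t • EuclideanSpace.single i 1)) 0) ^ 2
  have hb : f z ^ 2 * (-(1 / 8)) ≤ p * (f z * A + (p - 1) * B) := by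
    have e : f z ^ 2 * (p * (A / f z + (p - 1) * (B / f z ^ 2)))
        = p * (f z * A + (p - 1) * B) := by field_simp
    rw [← e]
    refine mul_le_mul_of_nonneg_left ?_ (sq_nonneg _)
    linarith
  have hb2 : f z ^ 2 ≤ -2 * (m : ℝ) * A * f z + (m : ℝ) * ((m : ℝ) - 1) * (1 - B) := by
    have e : f z ^ 2 * (-2 * (m : ℝ) * A / f z + (m : ℝ) * ((m : ℝ) - 1) * (1 - B) / f z ^ 2)
        = -2 * (m : ℝ) * A * f z + (m : ℝ) * ((m : ℝ) - 1) * (1 - B) := by field_simp
    rw [← e]
    simpa using mul_le_mul_of_nonneg_left hz2 (sq_nonneg (f z))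
  rw [hp] at hb
  nlinarith [sq_nonneg (f z), mul_nonneg (by linarith : (0:ℝ) ≤ (m:ℝ) - 1) (sq_nonneg (f z))]

/-- A nearby point of small warping, reached by a segment inside `U`. -/
lemma exists_near {m : ℕ} (hm : 2 ≤ m) {f : (EuclideanSpace ℝ (Fin k)) → ℝ} (hf : ContDiff ℝ 2 f)
    {U : Set (EuclideanSpace ℝ (Fin k))} (hU : IsOpen U) (hpos : ∀ x ∈ U, 0 < f x) (hbd : ∀ x ∈ frontier U, f x = 0)
    (hS : ∀ x ∈ U, 1 ≤ -2 * (m : ℝ) *
        (∑ i, deriv (deriv fun t : ℝ => f (x + t • EuclideanSpace.single i 1)) 0) / f x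
      + (m : ℝ) * ((m : ℝ) - 1) *
        (1 - ∑ i, (deriv (fun t : ℝ => f (x + t • EuclideanSpace.single i 1)) 0) ^ 2) / f x ^ 2)
    {x : (EuclideanSpace ℝ (Fin k))} (hx : x ∈ U) :
    ∃ y, segment ℝ x y ⊆ U ∧ ‖y - x‖ ≤ Real.sqrt 2 * Real.pi * k ∧
      f y ≤ Real.sqrt (2 * (m : ℝ) * ((m : ℝ) - 1)) := by
  obtain ⟨y, hy, hor⟩ := exists_low hm hf hU hpos hS hx
  have hd : ‖y - x‖ ≤ Real.sqrt 2 * Real.pi * k := by
    rw [EuclideanSpace.norm_eq]
    refine (Real.sqrt_le_sqrt (Finset.sum_le_sum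
      (g := fun _ => (Real.pi * Real.sqrt (2 * k)) ^ 2) ?_)).trans (le_of_eq ?_)
    · intro i _
      refine pow_le_pow_left₀ (norm_nonneg _) ?_ 2
      simpa using hy i
    · simp only [Finset.sum_const, Finset.card_univ, Fintype.card_fin, nsmul_eq_mul]
      rw [mul_pow, Real.sq_sqrt (by positivity),
        show (k : ℝ) * (Real.pi ^ 2 * (2 * k)) = 2 * (Real.pi * k) ^ 2 by ring,
        Real.sqrt_mul (by norm_num), Real.sqrt_sq (by positivity)]
      ring
  by_cases hseg : segment ℝ x y ⊆ U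
  · have hyU := hseg (right_mem_segment ℝ x y)
    exact ⟨y, hseg, hd, Real.le_sqrt_of_sq_le (hor.resolve_left (fun h => h hyU))⟩
  set S := {t : ℝ | t ∈ Icc (0:ℝ) 1 ∧ x + t • (y - x) ∉ U} with hSdef
  have hne : S.Nonempty := by
    rw [segment_eq_image'] at hseg
    obtain ⟨_, ⟨t, ht, rfl⟩, hn⟩ := not_subset.mp hseg
    exact ⟨t, ht, hn⟩
  have hcont : Continuous fun t : ℝ => x + t • (y - x) := by fun_prop
  have hcl : IsClosed S := isClosed_Icc.inter (hU.isClosed_compl.preimage hcont)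
  have hbb : BddBelow S := ⟨0, fun t ht => ht.1.1⟩
  obtain ⟨htI, htU⟩ := hcl.csInf_mem hne hbb
  set τ := sInf S
  have hτ0 : 0 < τ := lt_of_le_of_ne htI.1 (fun e => htU (by rw [← e]; simpa using hx))
  have hin : ∀ t ∈ Ico 0 τ, x + t • (y - x) ∈ U := by
    intro t ht
    by_contra hn
    exact absurd (csInf_le hbb ⟨⟨ht.1, ht.2.le.trans htI.2⟩, hn⟩) (not_le.mpr ht.2)
  have hfr : f (x + τ • (y - x)) = 0 := by
    refine hbd _ ?_
    rw [hU.frontier_eq]
    refine ⟨?_, htU⟩
    refine mem_closure_of_tendsto (hcont.continuousAt.tendsto.mono_left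
      (nhdsWithin_le_nhds (s := Iio τ))) ?_
    filter_upwards [Ioo_mem_nhdsLT hτ0] with t ht using hin t ⟨ht.1.le, ht.2⟩
  have hL : 0 < Real.sqrt (2 * (m : ℝ) * ((m : ℝ) - 1)) := by
    have hm2 : (2:ℝ) ≤ m := by exact_mod_cast hm
    exact Real.sqrt_pos.mpr (by nlinarith)
  have hev : ∀ᶠ t in 𝓝[<] τ, f (x + t • (y - x)) < Real.sqrt (2 * (m : ℝ) * ((m : ℝ) - 1)) :=
    ((hf.continuous.comp hcont).continuousAt.eventually
      (gt_mem_nhds (by simpa [Function.comp, hfr] using hL))).filter_mono nhdsWithin_le_nhds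
  obtain ⟨t, ht, hts⟩ := (hev.and (Ioo_mem_nhdsLT hτ0)).exists
  refine ⟨x + t • (y - x), ?_, ?_, ht.le⟩
  · rw [segment_eq_image']
    rintro _ ⟨s, hs, rfl⟩
    have := hin (s * t) ⟨mul_nonneg hs.1 hts.1.le,
      lt_of_le_of_lt (mul_le_of_le_one_left hts.1.le hs.2) hts.2⟩
    simpa [mul_smul] using this
  · rw [add_sub_cancel_left, norm_smul, Real.norm_eq_abs, abs_of_pos hts.1]
    exact (mul_le_of_le_one_left (norm_nonneg _) (hts.2.le.trans htI.2)).trans hd

/-- Every fibre of the projection to the base has uniformly bounded diameter. -/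
theorem flat_fibre_bound {m : ℕ} (hm : 2 ≤ m) {f : (EuclideanSpace ℝ (Fin k)) → ℝ} (hf : ContDiff ℝ 2 f)
    {U : Set (EuclideanSpace ℝ (Fin k))} (hU : IsOpen U) (hpos : ∀ x ∈ U, 0 < f x) (hbd : ∀ x ∈ frontier U, f x = 0)
    (hS : ∀ x ∈ U, 1 ≤ -2 * (m : ℝ) *
        (∑ i, deriv (deriv fun t : ℝ => f (x + t • EuclideanSpace.single i 1)) 0) / f x
      + (m : ℝ) * ((m : ℝ) - 1) *
        (1 - ∑ i, (deriv (fun t : ℝ => f (x + t • EuclideanSpace.single i 1)) 0) ^ 2) / f x ^ 2)
    {x : (EuclideanSpace ℝ (Fin k))} (hx : x ∈ U) (a b : EuclideanSpace ℝ (Fin (m + 1))) (ha : ‖a‖ = 1) (hb : ‖b‖ = 1) :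
    ∃ γ : ℝ → (EuclideanSpace ℝ (Fin k)) × EuclideanSpace ℝ (Fin (m + 1)), ContDiff ℝ 1 γ ∧
      γ 0 = (x, a) ∧ γ 1 = (x, b) ∧ (∀ t, (γ t).1 ∈ U ∧ ‖(γ t).2‖ = 1) ∧
      ∫ t in (0:ℝ)..1, Real.sqrt (‖deriv (fun u => (γ u).1) t‖ ^ 2
          + f ((γ t).1) ^ 2 * ‖deriv (fun u => (γ u).2) t‖ ^ 2)
        ≤ 2 * Real.sqrt 2 * Real.pi * k
          + Real.pi * Real.sqrt (2 * (m : ℝ) * ((m : ℝ) - 1)) := by
  obtain ⟨y, hseg, hd, hfy⟩ := exists_near hm hf hU hpos hbd hS hx
  obtain ⟨c, hc, hc0, hc1, hc2, hc3⟩ := arc (m + 1) (by omega) a b ha hb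
  have hyU := hseg (right_mem_segment ℝ x y)
  set L := Real.sqrt (2 * (m : ℝ) * ((m : ℝ) - 1))
  set T := Real.smoothTransition
  have hT : ContDiff ℝ 1 T := Real.smoothTransition.contDiff
  set s1 : ℝ → ℝ := fun t => T (3 * t) with hs1
  set s2 : ℝ → ℝ := fun t => T (3 * t - 1) with hs2
  set s3 : ℝ → ℝ := fun t => T (3 * t - 2) with hs3
  have cd1 : ContDiff ℝ 1 s1 := hT.comp (by fun_prop)
  have cd2 : ContDiff ℝ 1 s2 := hT.comp (by fun_prop)
  have cd3 : ContDiff ℝ 1 s3 := hT.comp (by fun_prop)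
  have mT : Monotone T := Real.smoothTransition.monotone
  have m1 : Monotone s1 := fun u v h => mT (by linarith)
  have m2 : Monotone s2 := fun u v h => mT (by linarith)
  have m3 : Monotone s3 := fun u v h => mT (by linarith)
  set σ : ℝ → ℝ := fun t => s1 t - s3 t with hσ
  have hσ01 : ∀ t, σ t ∈ Icc (0:ℝ) 1 := fun t => by
    constructor
    · simp only [hσ, sub_nonneg]
      exact mT (by linarith)
    · simp only [hσ, hs1, hs3]
      linarith [Real.smoothTransition.le_one (3 * t), Real.smoothTransition.nonneg (3 * t - 2)]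
  have dσ : ∀ t, HasDerivAt σ (deriv s1 t - deriv s3 t) t := fun t =>
    ((cd1.differentiable one_ne_zero) t).hasDerivAt.sub ((cd3.differentiable one_ne_zero) t).hasDerivAt
  have d1 : ∀ t, HasDerivAt (fun u => x + σ u • (y - x))
      ((deriv s1 t - deriv s3 t) • (y - x)) t := fun t =>
    ((dσ t).smul_const (y - x)).const_add x
  have d2 : ∀ t, HasDerivAt (fun u => c (s2 u)) (deriv s2 t • deriv c (s2 t)) t := fun t =>
    HasDerivAt.scomp t ((hc.differentiable one_ne_zero) (s2 t)).hasDerivAt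
      ((cd2.differentiable one_ne_zero) t).hasDerivAt
  have z0 : σ 0 = 0 ∧ s2 0 = 0 := by
    refine ⟨?_, ?_⟩ <;> simp [hσ, hs1, hs2, hs3, T, Real.smoothTransition.zero_of_nonpos]
  have z1 : σ 1 = 0 ∧ s2 1 = 1 := by
    refine ⟨?_, ?_⟩ <;> norm_num [hσ, hs1, hs2, hs3, T, Real.smoothTransition.one_of_one_le]
  have hmid : ∀ t, deriv s2 t ≠ 0 → σ t = 1 := by
    intro t ht
    have h3 : 1 < 3 * t ∧ 3 * t < 2 := by
      constructor
      · by_contra hle
        push Not at hle
        apply ht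
        have : IsLocalMin s2 t := Eventually.of_forall fun u => by
          simp only [hs2, T]
          rw [Real.smoothTransition.zero_of_nonpos (by linarith : 3 * t - 1 ≤ 0)]
          exact Real.smoothTransition.nonneg _
        exact this.deriv_eq_zero
      · by_contra hle
        push Not at hle
        apply ht
        have : IsLocalMax s2 t := Eventually.of_forall fun u => by
          simp only [hs2, T]
          rw [Real.smoothTransition.one_of_one_le (by linarith : 1 ≤ 3 * t - 1)]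
          exact Real.smoothTransition.le_one _
        exact this.deriv_eq_zero
    simp only [hσ, hs1, hs3, T]
    rw [Real.smoothTransition.one_of_one_le (by linarith),
      Real.smoothTransition.zero_of_nonpos (by linarith)]
    ring
  refine ⟨fun t => (x + σ t • (y - x), c (s2 t)),
    (contDiff_const.add ((cd1.sub cd3).smul contDiff_const)).prodMk (hc.comp cd2),
    by simp [z0, hc0], by simp [z1, hc1],
    fun t => ⟨hseg (by rw [segment_eq_image']; exact ⟨σ t, hσ01 t, rfl⟩), hc2 _⟩, ?_⟩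
  simp only [(d1 _).deriv, (d2 _).deriv]
  have hk0 : (0:ℝ) ≤ Real.sqrt 2 * Real.pi * k := by positivity
  have hpt : ∀ t, Real.sqrt (‖(deriv s1 t - deriv s3 t) • (y - x)‖ ^ 2
      + f (x + σ t • (y - x)) ^ 2 * ‖deriv s2 t • deriv c (s2 t)‖ ^ 2)
      ≤ (deriv s1 t + deriv s3 t) * (Real.sqrt 2 * Real.pi * k) + deriv s2 t * (L * Real.pi) := by
    intro t
    have n1 : 0 ≤ deriv s1 t := m1.deriv_nonneg
    have n2 : 0 ≤ deriv s2 t := m2.deriv_nonneg
    have n3 : 0 ≤ deriv s3 t := m3.deriv_nonneg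
    have hA : ‖(deriv s1 t - deriv s3 t) • (y - x)‖
        ≤ (deriv s1 t + deriv s3 t) * (Real.sqrt 2 * Real.pi * k) := by
      rw [norm_smul, Real.norm_eq_abs]
      exact mul_le_mul (abs_le.mpr ⟨by linarith, by linarith⟩) hd (norm_nonneg _) (by linarith)
    have hB : |f (x + σ t • (y - x))| * ‖deriv s2 t • deriv c (s2 t)‖
        ≤ deriv s2 t * (L * Real.pi) := by
      by_cases h : deriv s2 t = 0
      · simp [h]
      · rw [hmid t h, one_smul, add_sub_cancel, abs_of_pos (hpos y hyU), norm_smul,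
          Real.norm_eq_abs, abs_of_nonneg n2]
        calc f y * (deriv s2 t * ‖deriv c (s2 t)‖)
            = deriv s2 t * (f y * ‖deriv c (s2 t)‖) := by ring
          _ ≤ _ := mul_le_mul_of_nonneg_left
            (mul_le_mul hfy (hc3 _) (norm_nonneg _) (Real.sqrt_nonneg _)) n2
    refine (Real.sqrt_le_iff.mpr ⟨by positivity, ?_⟩)
    have h1 := pow_le_pow_left₀ (norm_nonneg _) hA 2
    have h2 := pow_le_pow_left₀ (by positivity) hB 2
    rw [mul_pow, sq_abs] at h2
    nlinarith [mul_nonneg (mul_nonneg (add_nonneg n1 n3) hk0)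
      (mul_nonneg n2 (mul_nonneg (Real.sqrt_nonneg _ : 0 ≤ L) Real.pi_pos.le))]
  have c1 := cd1.continuous_deriv le_rfl
  have c2 := cd2.continuous_deriv le_rfl
  have c3 := cd3.continuous_deriv le_rfl
  have cc := hc.continuous_deriv le_rfl
  refine (intervalIntegral.integral_mono_on zero_le_one ?_ ?_ fun t _ => hpt t).trans (le_of_eq ?_)
  · refine Continuous.intervalIntegrable ?_ _ _
    exact Real.continuous_sqrt.comp ((((c1.sub c3).smul continuous_const).norm.pow 2).add
      (((hf.continuous.comp (continuous_const.add ((cd1.continuous.sub cd3.continuous).smul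
        continuous_const))).pow 2).mul ((c2.smul (cc.comp cd2.continuous)).norm.pow 2)))
  · exact (Continuous.intervalIntegrable
      (((c1.add c3).mul continuous_const).add (c2.mul continuous_const)) _ _)
  · have i1 : IntervalIntegrable (fun t => (deriv s1 t + deriv s3 t) * (Real.sqrt 2 * Real.pi * k))
        volume 0 1 := ((c1.add c3).mul continuous_const).intervalIntegrable _ _
    have i2 : IntervalIntegrable (fun t => deriv s2 t * (L * Real.pi)) volume 0 1 :=
      (c2.mul continuous_const).intervalIntegrable _ _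
    rw [intervalIntegral.integral_add i1 i2, intervalIntegral.integral_mul_const,
      intervalIntegral.integral_mul_const,
      intervalIntegral.integral_add (c1.intervalIntegrable _ _) (c3.intervalIntegrable _ _),
      intervalIntegral.integral_deriv_eq_sub (fun t _ => (cd1.differentiable one_ne_zero) t)
        (c1.intervalIntegrable _ _),
      intervalIntegral.integral_deriv_eq_sub (fun t _ => (cd2.differentiable one_ne_zero) t)
        (c2.intervalIntegrable _ _),
      intervalIntegral.integral_deriv_eq_sub (fun t _ => (cd3.differentiable one_ne_zero) t)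
        (c3.intervalIntegrable _ _)]
    norm_num [hs1, hs2, hs3, T, Real.smoothTransition.one_of_one_le,
      Real.smoothTransition.zero_of_nonpos]
    ring

end Vale.Agent.P210
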